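import Vale.Agent.P352G97.Sgn

/-!
# P352G, row RSG: the re-signed theory
-/

set_option linter.all false

open Filter Topology

noncomputable section

namespace Vale.Agent.P352G97

open Vale.Agent.P352 Vale.Agent.P352.GF Vale.Agent.P352.BW Vale.Agent.P352.H246 Vale.Agent.P352.H496
open Vale.Agent.P352.H15 Vale.Agent.P352.H755 Vale.Agent.P352X Vale.Agent.P352G
open UniformSpace (Completion)

variable {D : Type*} [NormedAddCommGroup D] [InnerProductSpace ℂ D] [GrD D] {Q : Theory D}
  {A : (V → V) → D → D} {N : Set V → VonNeumannAlgebra (Completion D)} {e : (Ix → V) → Bool}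
  {s s' : ℝ} {L L' : Ix → V} {a a' : V}

lemma cm_one (L : Ix → V) : (fun m => sim 1 L 0 (GF.one m)) = L :=
  funext fun m => (H26.sim_row L m).symm

lemma one_cm (L : Ix → V) : (fun m => sim 1 GF.one 0 (L m)) = L := funext fun m => H26.sim_one0 _

lemma ur (g : Gr Q GrD.G) (hs : 0 < s) (hs' : 0 < s') (hL : IsLor L) (v : D) :
    Q.U s L a (Q.U s' GF.one a' v) = Q.U (s * s') L (sim s L a a') v := by
  have := (g.mul s L a s' _ a' hs hs' hL H496.isLor_one).resolve_right (fun e => e.2.1 rfl) v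
  rwa [cm_one] at this

lemma ul (g : Gr Q GrD.G) (hs : 0 < s) (hs' : 0 < s') (hL : IsLor L) (v : D) :
    Q.U s GF.one a (Q.U s' L a' v) = Q.U (s * s') L (sim s GF.one a a') v := by
  have := (g.mul s _ a s' L a' hs hs' H496.isLor_one hL).resolve_right (fun e => e.1 rfl) v
  rwa [one_cm] at this

lemma u_cond (g : Gr Q GrD.G) (hs : 0 < s) (hL : IsLor L) (c : Bool) (v : D) :
    Q.U s L a (cond c (Gd v) v) = cond c (Gd (Q.U s L a v)) (Q.U s L a v) := by
  cases c
  · rfl
  · exact g.GU s L a v hs hL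

lemma us_cond (g : Gr Q GrD.G) (hs : 0 < s) (hL : IsLor L) (c : Bool) (v : D) :
    Us Q e s L a (cond c (Gd v) v) = cond c (Gd (Us Q e s L a v)) (Us Q e s L a v) := by
  unfold Us
  rw [u_cond g hs hL]
  cases c <;> cases e L <;> rfl

lemma usr (g : Gr Q GrD.G) (hs : 0 < s) (hs' : 0 < s') (hL : IsLor L) (v : D) :
    Us Q e s L a (Q.U s' GF.one a' v) = Us Q e (s * s') L (sim s L a a') v := by
  unfold Us
  rw [ur g hs hs' hL]

lemma usl (g : Gr Q GrD.G) (hs : 0 < s) (hs' : 0 < s') (hL : IsLor L) (v : D) :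
    Q.U s GF.one a (Us Q e s' L a' v) = Us Q e (s * s') L (sim s GF.one a a') v := by
  unfold Us
  rw [u_cond g hs H496.isLor_one, ul g hs hs' hL]

lemma udec (g : Gr Q GrD.G) (hs : 0 < s) (hL : IsLor L) (v : D) :
    Q.U s L a v = Q.U s GF.one a (Q.U 1 L 0 v) := by
  rw [ul g hs one_pos hL, mul_one, Grp.sim_zero]

lemma usdec (g : Gr Q GrD.G) (hs : 0 < s) (hL : IsLor L) (v : D) :
    Us Q e s L a v = Q.U s GF.one a (Us Q e 1 L 0 v) := by
  rw [usl g hs one_pos hL, mul_one, Grp.sim_zero]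

lemma us_one (h : Sgn Q e) (s : ℝ) (a : V) : Us Q e s GF.one a = Q.U s GF.one a := by
  funext v
  rw [Us, h.one]
  rfl

/-- the re-signed theory -/
def rsQ (g : Gr Q GrD.G) (hv : Gd Q.vac = Q.vac) (h : Sgn Q e) : Theory D :=
  { Q with
    U := Us Q e
    U_inner := fun s L a v w hs hL => by
      unfold Us
      cases e L
      · exact Q.U_inner s L a v w hs hL
      · exact (g.herm _ _).trans (by rw [cond_true, g.inv, Q.U_inner s L a v w hs hL])
    U_vac := fun s L a hs hL => by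
      unfold Us
      rw [Q.U_vac s L a hs hL, hv, Bool.cond_self]
    transl := fun A a f v hA hf => by
      rw [us_one h]
      exact Q.transl A a f v hA hf
    spectrum := fun v => by
      simp only [us_one h]
      exact Q.spectrum v }

lemma us_mul (g : Gr Q GrD.G) (h : Sgn Q e) (hs : 0 < s) (hs' : 0 < s') (hL : IsLor L)
    (hL' : IsLor L') (hk : OkL L L') (v : D) : Us Q e s L a (Us Q e s' L' a' v) =
      Us Q e (s * s') (fun m => sim 1 L 0 (L' m)) (sim s L a a') v := by
  rcases hk with rfl | rfl | ⟨b, hb, h1, h2⟩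
  · rw [us_one h, usl g hs hs' hL', one_cm]
  · rw [us_one h, usr g hs hs' hL, cm_one]
  · have h3 := mul_pos hs hs'
    rw [usdec g hs' hL', usr g hs hs' hL, usdec g h3 hL, h.mul b L L' v hb hL hL' h1 h2,
      ← usdec g h3 (ue_lor hL hL')]

lemma lim_L {s : ℝ → ℝ} {L : ℝ → Ix → V} {a : ℝ → V} {X : V → V} (s0 : s 0 = 1)
    (L0 : L 0 = GF.one) (a0 : a 0 = 0) (h : ∀ t, 0 < s t ∧ IsLor (L t))
    (hd : ∀ n x, HasDerivAt (fun t => sim (s t) (L t) (a t) x n) (X x n) 0) :
    Tendsto L (𝓝 0) (𝓝 GF.one) := by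
  have h1 : ∀ x, Tendsto (fun t => sim (s t) (L t) (a t) x) (𝓝 0) (𝓝 x) := fun x => by
    refine tendsto_pi_nhds.2 fun n => ?_
    have := (hd n x).continuousAt.tendsto
    simpa only [s0, L0, a0, H26.sim_one0] using this
  have h2 : ∀ m, Tendsto (fun t => s t • L t m) (𝓝 0) (𝓝 (GF.one m)) := fun m => by
    have := (h1 (bas m 1)).sub (h1 0)
    rw [sub_zero] at this
    refine this.congr fun t => ?_
    rw [Grp.sim_zero, Grp.sim_eq, ← H26.sim_row, add_sub_cancel_left]
  have h3 : Continuous fun y : V => Real.sqrt (GF.mdot y y) := by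
    unfold GF.mdot
    fun_prop
  have h4 : ∀ {L : Ix → V}, IsLor L → GF.mdot (L o) (L o) = 1 := fun hL => by
    rw [hL.1]
    simp [bas, eta]
  have h5 : Tendsto s (𝓝 0) (𝓝 1) := by
    have := (h3.tendsto _).comp (h2 o)
    rw [h4 H496.isLor_one, Real.sqrt_one] at this
    refine this.congr fun t => ?_
    show Real.sqrt _ = _
    rw [md_smul, md_smul_l, h4 (h t).2, mul_one, Real.sqrt_mul_self (h t).1.le]
  refine tendsto_pi_nhds.2 fun m => ?_
  have := (h5.inv₀ one_ne_zero).smul (h2 m)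
  rw [inv_one, one_smul] at this
  exact this.congr fun t => inv_smul_smul₀ (h t).1.ne' _

theorem wir_row : WIR D := fun Q A N e h S => by
  have g := h.toGr
  have g2 : ∀ z, Gm D (Gm D z) = z := fun z => Completion.induction_on z
    (isClosed_eq (by fun_prop) continuous_id) fun v => by rw [h.ext, h.ext, g.inv]
  have ue : ∀ s L a z, 0 < s → IsLor L → Ue (rsQ g h.vac S) s L a z =
      cond (e L) (Gm D (Ue Q s L a z)) (Ue Q s L a z) := fun s L a z hs hL => by
    refine Completion.induction_on z (isClosed_eq (ue_cont _ _ _) ?_) fun v => ?_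
    · cases e L
      · exact ue_cont _ _ _
      · exact (Gm D).continuous.comp (ue_cont _ _ _)
    · rw [ue_coe hs hL, ue_coe hs hL, h.ext]
      show ((Us Q e s L a v : D) : Completion D) = _
      unfold Us
      cases e L <;> rfl
  refine ⟨rsQ g h.vac S, ⟨rfl, rfl, rfl, fun L _ => ⟨e L, fun e => e ▸ S.one, fun _ _ _ _ => rfl⟩⟩,
    { mul := fun s L a s' L' a' v hs hs' hL hL' hk => us_mul g S hs hs' hL hL' hk v
      add := h.add
      der := fun s L a X v s0 L0 a0 h1 hd => ?_
      gr :=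
        { inv := g.inv, herm := g.herm, bose := g.bose, split := g.split, anti := g.anti
          GU := fun s L a v hs hL => us_cond g hs hL true v
          mul := fun s L a s' L' a' hs hs' hL hL' => ?_ }
      gvac := h.vac
      ext := h.ext
      cj := fun s L a M M' b v hs hL hM hM' hb h1 e1 => ?_
      fld := h.fld
      mono := h.mono
      cov := fun s L y O X hX hs hL => ?_
      gam := h.gam
      loc := h.loc }⟩
  · refine (h.der s L a X v s0 L0 a0 h1 hd).congr_of_eventuallyEq ?_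
    filter_upwards [S.near L (fun t => (h1 t).2) (lim_L s0 L0 a0 h1 hd)] with t ht
    show Us Q e (s t) (L t) (a t) v = _
    rw [usdec g (h1 t).1 (h1 t).2, ht, ← udec g (h1 t).1 (h1 t).2]
  · by_cases h1 : L = GF.one
    · exact .inl (us_mul g S hs hs' hL hL' (.inl h1))
    by_cases h2 : L' = GF.one
    · exact .inl (us_mul g S hs hs' hL hL' (.inr (.inl h2)))
    show (∀ v, Us Q e s L a (Us Q e s' L' a' v) = Us Q e _ _ _ v) ∨
      _ ∧ _ ∧ ∀ v, Us Q e s L a (Us Q e s' L' a' v) = Gd (Us Q e _ _ _ v)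
    simp only [Us, u_cond g hs hL, ne_eq, h1, h2, not_false_eq_true, true_and]
    rcases g.mul s L a s' L' a' hs hs' hL hL' with h3 | ⟨-, -, h3⟩ <;> simp only [h3] <;>
      cases e L <;> cases e L' <;> cases e fun m => sim 1 L 0 (L' m) <;> simp [Gd, g.inv]
  · show Us Q e s L a (Us Q e 1 M 0 v) = Us Q e 1 M' _ (Us Q e s L a v)
    have h2 : Q.U s L a (Us Q e 1 M 0 v) =
        Us Q e 1 M' (a - sim 1 M' 0 a) (Q.U s L a v) := by
      rw [udec g hs hL, S.cj L M M' b v hL hM hM' hb h1 e1, ← usdec g hs hM', udec g hs hL v,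
        usr g one_pos hs hM', one_mul, Grp.sim_eq 1 M' _ a, one_smul, sub_add_cancel]
    rw [Us, Us.eq_1 Q e s L a v, us_cond g one_pos hM', h2]
  · obtain ⟨Y, hY, h1⟩ := h.cov s L y O X hX hs hL
    simp only [ue s L y _ hs hL]
    cases e L
    · exact ⟨Y, hY, h1⟩
    · refine ⟨_, h.gam _ Y hY, fun z => ?_⟩
      show Gm D (Y (Gm D (Gm D _))) = _
      rw [g2, h1]
      rfl

/-- **row RSG** -/
theorem rsg_row : RSG D := rsg_of D sgn_row wir_row

end Vale.Agent.P352G97

end
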