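import Vale.Agent.P352G97.Defs

/-!
# P352G, row RSG: squares of lifts in a central extension by a group of order two
-/

set_option linter.all false

namespace Vale.Agent.P352G97

variable {Γ E : Type*} [Monoid Γ] [Monoid E]

/-- a projective representation with values determined up to `z` -/
structure Ab (P : Γ → Prop) (u : Γ → E) (z : E) : Prop where
  zz : z * z = 1
  cz : ∀ g, P g → z * u g = u g * z
  cl : ∀ g h, P g → P h → P (g * h)
  mul : ∀ g h, P g → P h → u g * u h = u (g * h) ∨ u g * u h = z * u (g * h)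

/-- lifts -/
def Lf (u : Γ → E) (z : E) (g : Γ) (x : E) : Prop := x = u g ∨ x = z * u g

/-- the square of a lift -/
def Sq (u : Γ → E) (g : Γ) : E := u g * u g

namespace Ab

variable {P : Γ → Prop} {u : Γ → E} {z : E} (h : Ab P u z) {g g' m m' : Γ} {x y : E}
include h

lemma zz' (x : E) : z * (z * x) = x := by rw [← mul_assoc, h.zz, one_mul]

lemma lz (hg : P g) (hx : Lf u z g x) : x * z = z * x := by
  rcases hx with rfl | rfl
  · exact (h.cz g hg).symm
  · rw [mul_assoc, ← h.cz g hg]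

lemma lzz (hg : P g) (hx : Lf u z g x) (y : E) : x * (z * y) = z * (x * y) := by
  rw [← mul_assoc, h.lz hg hx, mul_assoc]

lemma lneg (hx : Lf u z g x) : Lf u z g (z * x) := by
  rcases hx with rfl | rfl
  · exact .inr rfl
  · exact .inl (h.zz' _)

lemma lmul (hg : P g) (hg' : P g') (hx : Lf u z g x) (hy : Lf u z g' y) :
    Lf u z (g * g') (x * y) := by
  have h0 : Lf u z (g * g') (u g * u g') := h.mul g g' hg hg'
  have h1 : Lf u z (g * g') (x * u g') := by
    rcases hx with rfl | rfl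
    · exact h0
    · rw [mul_assoc]
      exact h.lneg h0
  rcases hy with rfl | rfl
  · exact h1
  · rw [h.lzz hg hx]
    exact h.lneg h1

lemma leq (hx : Lf u z g x) (hy : Lf u z g y) : x = y ∨ x = z * y := by
  rcases hx with rfl | rfl <;> rcases hy with rfl | rfl
  · exact .inl rfl
  · exact .inr (h.zz' _).symm
  · exact .inr rfl
  · exact .inl rfl

lemma lsq (hg : P g) (hx : Lf u z g x) : x * x = Sq u g := by
  rcases hx with rfl | rfl
  · rfl
  · rw [mul_assoc, h.lzz hg (.inl rfl), h.zz']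
    rfl

lemma sql (hg : P g) : Lf u z (g * g) (Sq u g) := h.mul g g hg hg

lemma conj (hg : P g) (hm : P m) (hm' : P m') (hx : Lf u z g x) (e : m' * g = g * m) :
    x * Sq u m = Sq u m' * x := by
  have h1 : Lf u z (g * m) (x * u m) := h.lmul hg hm hx (.inl rfl)
  have h2 : Lf u z (g * m) (u m' * x) := e ▸ h.lmul hm' hg (.inl rfl) hx
  unfold Sq
  rcases h.leq h1 h2 with h3 | h3
  · rw [← mul_assoc, h3, mul_assoc, h3, mul_assoc]
  · rw [← mul_assoc, h3, mul_assoc, mul_assoc, h3, h.lzz hm' (.inl rfl), h.zz', mul_assoc]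

variable {W : Type*} [AddCommGroup W] [Module ℝ W]

omit h in
lemma half (w : W) : (2⁻¹ : ℝ) • w + (2⁻¹ : ℝ) • w = w := by module

lemma sq_add {n : W → Γ} (hn : ∀ w, P (n w)) (ha : ∀ w w', n (w + w') = n w * n w') (w w' : W) :
    Sq u (n (w + w')) = Sq u (n w) * Sq u (n w') := by
  have h1 : Lf u z (n w) (Sq u (n ((2⁻¹ : ℝ) • w))) := by
    have := h.sql (hn ((2⁻¹ : ℝ) • w))
    rwa [← ha, half] at this
  have h2 := h.conj (hn w') (hn ((2⁻¹ : ℝ) • w)) (hn ((2⁻¹ : ℝ) • w)) (.inl rfl)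
    (by rw [← ha, ← ha, add_comm])
  have h3 : u (n w') * u (n w) = u (n w) * u (n w') := by
    rcases h.leq (.inl rfl) h1 with e | e
    · rw [e, h2]
    · rw [e, h.lzz (hn w') (.inl rfl), h2, mul_assoc]
  have h4 : Lf u z (n (w + w')) (u (n w) * u (n w')) := by
    rw [ha]
    exact h.mul _ _ (hn w) (hn w')
  rw [← h.lsq (hn _) h4, mul_assoc, ← mul_assoc (u (n w')), h3]
  simp only [Sq, mul_assoc]

end Ab

variable {W : Type*} [AddCommGroup W] [Module ℝ W]

/-- a semidirect product of a vector group with the line -/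
structure Sd (P : Γ → Prop) (n : W → Γ) (α : ℝ → Γ) : Prop where
  pn : ∀ w, P (n w)
  pa : ∀ t, P (α t)
  nn : ∀ w w', n (w + w') = n w * n w'
  aa : ∀ t t', α (t + t') = α t * α t'
  an : ∀ t w, n (Real.exp t • w) * α t = α t * n w

/-- the splitting -/
noncomputable def tau (u : Γ → E) (n : W → Γ) (α : ℝ → Γ) (t : ℝ) (w : W) : E :=
  Sq u (n ((2⁻¹ : ℝ) • w)) * Sq u (α ((2⁻¹ : ℝ) • t))

namespace Sd

variable {P : Γ → Prop} {n : W → Γ} {α : ℝ → Γ} (s : Sd P n α) {u : Γ → E} {z : E}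
include s

lemma law (t t' : ℝ) (w w' : W) :
    n w * α t * (n w' * α t') = n (w + Real.exp t • w') * α (t + t') := by
  rw [s.nn, s.aa, mul_assoc, ← mul_assoc (α t), ← s.an]
  simp only [mul_assoc]

variable (h : Ab P u z)
include h

lemma lfa (t : ℝ) : Lf u z (α t) (Sq u (α ((2⁻¹ : ℝ) • t))) := by
  have := h.sql (s.pa ((2⁻¹ : ℝ) • t))
  rwa [← s.aa, Ab.half] at this

lemma lf (t : ℝ) (w : W) : Lf u z (n w * α t) (tau u n α t w) := by
  have := h.sql (s.pn ((2⁻¹ : ℝ) • w))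
  rw [← s.nn, Ab.half] at this
  exact h.lmul (s.pn w) (s.pa t) this (s.lfa h t)

lemma tmul (t t' : ℝ) (w w' : W) :
    tau u n α t w * tau u n α t' w' = tau u n α (t + t') (w + Real.exp t • w') := by
  have h1 := h.conj (s.pa t) (s.pn ((2⁻¹ : ℝ) • w')) (s.pn _) (s.lfa h t) (s.an t _)
  unfold tau
  rw [smul_add, smul_add, h.sq_add s.pn s.nn, h.sq_add s.pa s.aa, smul_comm _ (Real.exp t),
    mul_assoc, ← mul_assoc (Sq u (α _)), h1]
  simp only [mul_assoc]

lemma sq (t : ℝ) (w : W) : Sq u (n w * α t) = tau u n α (t + t) (w + Real.exp t • w) := by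
  rw [← s.tmul h, h.lsq (h.cl _ _ (s.pn w) (s.pa t)) (s.lf h t w)]

variable (hi : ∀ t t' w w', n w * α t = n w' * α t' → t = t' ∧ w = w')
include hi

lemma key {m : Γ} (hm : ∃ t w, m = n w * α t) {t : ℝ} {w : W} (e : m * m = n w * α t) :
    Sq u m = tau u n α t w := by
  obtain ⟨t', w', rfl⟩ := hm
  rw [s.law] at e
  obtain ⟨rfl, rfl⟩ := hi _ _ _ _ e
  exact s.sq h t' w'

theorem uniq {m m' : Γ} (hm : ∃ t w, m = n w * α t) (hm' : ∃ t w, m' = n w * α t)
    (e : m * m = m' * m') : Sq u m = Sq u m' := by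
  obtain ⟨t, w, rfl⟩ := hm'
  rw [s.key h hi hm (e.trans (s.law _ _ _ _)), s.sq h]

theorem hom {m m' k : Γ} (hm : ∃ t w, m = n w * α t) (hm' : ∃ t w, m' = n w * α t)
    (hk : ∃ t w, k = n w * α t) (e : k * k = m * m * (m' * m')) :
    Sq u m * Sq u m' = Sq u k := by
  obtain ⟨t, w, rfl⟩ := hm
  obtain ⟨t', w', rfl⟩ := hm'
  rw [s.law, s.law, s.law] at e
  rw [s.key h hi hk e, s.sq h, s.sq h, s.tmul h]

end Sd

end Vale.Agent.P352G97
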