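import Vale.Agent.P352G.Defs

/-!
# P352G, row RSG: the cut
-/

set_option linter.all false

open Filter Topology

noncomputable section

namespace Vale.Agent.P352G97

open Vale.Agent.P352 Vale.Agent.P352.GF Vale.Agent.P352.BW Vale.Agent.P352.H246 Vale.Agent.P352.H496
open Vale.Agent.P352.H15 Vale.Agent.P352X Vale.Agent.P352G
open UniformSpace (Completion)

variable {D : Type*} [NormedAddCommGroup D] [InnerProductSpace ℂ D] [GrD D]

/-- the similitudes, re-signed by `e` -/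
def Us (Q : Theory D) (e : (Ix → V) → Bool) (s : ℝ) (L : Ix → V) (a : V) (v : D) : D :=
  cond (e L) (Gd (Q.U s L a v)) (Q.U s L a v)

/-- good signs -/
structure Sgn (Q : Theory D) (e : (Ix → V) → Bool) : Prop where
  one : e GF.one = false
  mul : ∀ a L L' v, IsNull a → IsLor L → IsLor L' → AN a L → AN a L' →
    Us Q e 1 L 0 (Us Q e 1 L' 0 v) = Us Q e 1 (fun m => sim 1 L 0 (L' m)) 0 v
  cj : ∀ L M M' b v, IsLor L → IsLor M → IsLor M' → IsNull b → AN b M →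
    (∀ x, sim 1 M' 0 (sim 1 L 0 x) = sim 1 L 0 (sim 1 M 0 x)) →
    Q.U 1 L 0 (Us Q e 1 M 0 v) = Us Q e 1 M' 0 (Q.U 1 L 0 v)
  near : ∀ L : ℝ → Ix → V, (∀ t, IsLor (L t)) → Tendsto L (𝓝 0) (𝓝 GF.one) →
    ∀ᶠ t in 𝓝 (0 : ℝ), ∀ v, Us Q e 1 (L t) 0 v = Q.U 1 (L t) 0 v

variable (D)

/-- sub-row SGN: good signs exist -/
def SGN : Prop := ∀ (Q : Theory D) A N, LNg Q GrD.G A (Gm D) N → ∃ e, Sgn Q e

/-- sub-row WIR: good signs give the re-signed theory -/
def WIR : Prop := ∀ (Q : Theory D) A N e, LNg Q GrD.G A (Gm D) N → Sgn Q e →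
  ∃ Q' : Theory D, Rs Q Q' ∧ LNmZ Q' A N

theorem rsg_of (h : SGN D) (h' : WIR D) : RSG D := fun Q A N hN =>
  (h Q A N hN).elim fun e he => h' Q A N e hN he

end Vale.Agent.P352G97

end
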