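import Vale.Agent.P352G97.Abs

/-!
# P352G, row RSG: the group `AN` and its square roots
-/

set_option linter.all false

open Filter Topology

noncomputable section

namespace Vale.Agent.P352G97

open Vale.Agent.P352 Vale.Agent.P352.GF Vale.Agent.P352.BW Vale.Agent.P352.H246 Vale.Agent.P352.H496
open Vale.Agent.P352.H15 Vale.Agent.P352.H755 Vale.Agent.P352X Vale.Agent.P352G
open Vale.Agent.P352.H746 (nrt sim_nrt isLor_nrt)

/-- the point map of a matrix -/
def ap (L : Ix → V) : Function.End V := sim 1 L 0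

/-- the matrix of a point map -/
def mx (g : Function.End V) : Ix → V := fun m => g (bas m 1)

/-- the product of matrices -/
abbrev cm (L L' : Ix → V) : Ix → V := fun m => sim 1 L 0 (L' m)

lemma mx_ap (L : Ix → V) : mx (ap L) = L := funext fun m => (H26.sim_row L m).symm

lemma ap_cm (L L' : Ix → V) : ap (cm L L') = ap L * ap L' := funext fun x => Kin.sim_comp L L' x

lemma ap_mul (L L' : Ix → V) (x : V) : (ap L * ap L') x = sim 1 L 0 (sim 1 L' 0 x) := rfl

/-- Lorentz point maps -/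
def PL (g : Function.End V) : Prop := ∃ L, IsLor L ∧ g = ap L

/-- the transverse plane -/
def Tv (a b : V) : Submodule ℝ V where
  carrier := {w | GF.mdot a w = 0 ∧ GF.mdot b w = 0}
  add_mem' h h' := ⟨by rw [md_add, h.1, h'.1, add_zero], by rw [md_add, h.2, h'.2, add_zero]⟩
  zero_mem' := ⟨by simp [GF.mdot], by simp [GF.mdot]⟩
  smul_mem' c w h := ⟨by rw [md_smul, h.1, mul_zero], by rw [md_smul, h.2, mul_zero]⟩

/-- boosts -/
def bo (a b : V) (t : ℝ) : Ix → V := bst a b (Real.exp t - 1) ((Real.exp t)⁻¹ - 1)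

/-- null rotations -/
def nr (a b : V) (w : Tv a b) : Function.End V := ap (nrt a w)

/-- boosts -/
def bp (a b : V) (t : ℝ) : Function.End V := ap (bo a b t)

variable {a b : V} {L L' M M' : Ix → V}

lemma lor_bo (ha : IsNull a) (hb : IsNull b) (hab : GF.mdot a b = 1) (t : ℝ) :
    IsLor (bo a b t) :=
  isLor_bst ha hb hab (by simpa using Real.exp_pos t) (by
    simp only [add_sub_cancel]
    exact mul_inv_cancel₀ (Real.exp_pos t).ne')

lemma sd (ha : IsNull a) (hb : IsNull b) (hab : GF.mdot a b = 1) : Sd PL (nr a b) (bp a b) where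
  pn w := ⟨_, isLor_nrt ha w.2.1, rfl⟩
  pa t := ⟨_, lor_bo ha hb hab t, rfl⟩
  nn w w' := funext fun x => by
    obtain ⟨w, h1, h2⟩ := w
    obtain ⟨w', h1', h2'⟩ := w'
    show sim 1 (nrt a (w + w')) 0 x = sim 1 (nrt a w) 0 (sim 1 (nrt a w') 0 x)
    simp only [sim_nrt, md_add, md_add_l, md_sub, md_smul, md_comm w a, md_comm w' w, h1, h1', ha.1]
    module
  aa t t' := funext fun x => by
    show sim 1 (bo a b (t + t')) 0 x = sim 1 (bo a b t) 0 (sim 1 (bo a b t') 0 x)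
    simp only [bo, sim_bst, md_add, md_smul, md_comm b a, hab, ha.1, hb.1, Real.exp_add, mul_inv]
    module
  an t w := funext fun x => by
    obtain ⟨w, h1, h2⟩ := w
    have := (Real.exp_pos t).ne'
    show sim 1 (nrt a (Real.exp t • w)) 0 (sim 1 (bo a b t) 0 x) =
      sim 1 (bo a b t) 0 (sim 1 (nrt a w) 0 x)
    simp only [bo, sim_bst, sim_nrt, md_add, md_sub, md_smul, md_smul_l, md_comm b a, md_comm w a,
      md_comm w b, hab, ha.1, hb.1, h1, h2]
    match_scalars <;> field_simp <;> ring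

lemma form (ha : IsNull a) (hab : GF.mdot a b = 1) (t : ℝ) (w : Tv a b) (x : V) :
    (nr a b w * bp a b t) x = x + ((Real.exp t - 1) * GF.mdot b x) • a +
      (((Real.exp t)⁻¹ - 1) * GF.mdot a x) • b - (2 * GF.mdot w x) • a +
      (2 * (Real.exp t)⁻¹ * GF.mdot a x) • (w : V) -
      (2 * GF.mdot w w * (Real.exp t)⁻¹ * GF.mdot a x) • a := by
  obtain ⟨w, h1, h2⟩ := w
  show sim 1 (nrt a w) 0 (sim 1 (bo a b t) 0 x) = _
  simp only [bo, sim_bst, sim_nrt, md_add, md_smul, md_comm w a, md_comm w b, hab, ha.1, h1, h2]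
  module

lemma inj (ha : IsNull a) (hb : IsNull b) (hab : GF.mdot a b = 1) (t t' : ℝ) (w w' : Tv a b)
    (h : nr a b w * bp a b t = nr a b w' * bp a b t') : t = t' ∧ w = w' := by
  have hba : GF.mdot b a = 1 := by rw [md_comm, hab]
  have h1 := congrArg (fun g : Function.End V => GF.mdot b (g a)) h
  simp only [form ha hab, md_add, md_sub, md_smul, hba, ha.1, hb.1, md_comm _ a, w.2.1, w'.2.1,
    w.2.2, w'.2.2, hab] at h1
  obtain rfl : t = t' := Real.exp_injective (by linarith)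
  refine ⟨rfl, Subtype.ext ?_⟩
  have h2 := congrFun h b
  have h3 := congrArg (GF.mdot b) h2
  simp only [form ha hab, md_add, md_sub, md_smul, hba, hb.1, md_comm _ b, w.2.2, w'.2.2,
    hab] at h2 h3
  have h4 := inv_pos.2 (Real.exp_pos t)
  have h5 : GF.mdot (w : V) w = GF.mdot (w' : V) w' := by
    apply mul_left_cancel₀ h4.ne'
    linarith
  rw [h5] at h2
  apply smul_right_injective V (show 2 * (Real.exp t)⁻¹ * 1 ≠ 0 by positivity)
  exact add_left_cancel (sub_left_injective h2)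

lemma eig (ha : IsNull a) (hL : IsLor L) (h : AN a L) : ∃ t, sim 1 L 0 a = Real.exp t • a := by
  obtain ⟨c, hc⟩ := h a ha.1
  have h1 := (isNull_lor hL ha).2
  rw [hc] at h1
  have h2 : 0 < 1 + c := by
    have h3 := ha.2
    simp only [Pi.add_apply, Pi.smul_apply, smul_eq_mul] at h1
    by_contra h4
    nlinarith
  exact ⟨Real.log (1 + c), by rw [Real.exp_log h2, hc]; module⟩

lemma md_eig (hL : IsLor L) {t : ℝ} (h : sim 1 L 0 a = Real.exp t • a) (x : V) :
    GF.mdot a (sim 1 L 0 x) = (Real.exp t)⁻¹ * GF.mdot a x := by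
  rw [← md_LL hL a x, h, md_smul_l, inv_mul_cancel_left₀ (Real.exp_pos t).ne']

lemma par (ha : IsNull a) (hb : IsNull b) (hab : GF.mdot a b = 1) (hL : IsLor L) (h : AN a L) :
    ∃ t w, ap L = nr a b w * bp a b t := by
  obtain ⟨t, ht⟩ := eig ha hL h
  have hba : GF.mdot b a = 1 := by rw [md_comm, hab]
  have h0 := (Real.exp_pos t).ne'
  obtain ⟨y, hy⟩ : ∃ y, y = sim 1 L 0 b := ⟨_, rfl⟩
  have h1 : GF.mdot a y = (Real.exp t)⁻¹ := by rw [hy, md_eig hL ht, hab, mul_one]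
  have h2 : GF.mdot y y = 0 := by rw [hy, md_LL hL, hb.1]
  refine ⟨t, ⟨(Real.exp t / 2) • (y - GF.mdot b y • a - GF.mdot a y • b), ?_, ?_⟩,
    funext fun x => ?_⟩
  · simp only [md_smul, md_sub, ha.1, hab]
    ring
  · simp only [md_smul, md_sub, hb.1, hba]
    ring
  obtain ⟨c, hc⟩ := h (x - GF.mdot b x • a - GF.mdot a x • b) (by
    simp only [md_smul, md_sub, ha.1, hab]
    ring)
  have h3 := md_LL hL (x - GF.mdot b x • a - GF.mdot a x • b) b
  rw [hc, ← hy] at h3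
  simp only [md_add_l, md_sub_l, md_smul_l, hab, hb.1, h1, md_comm x b, md_comm x y] at h3
  rw [simL_sub, simL_sub, simL_smul, simL_smul, ht, ← hy] at hc
  have h4 : c = -Real.exp t * (GF.mdot y x - GF.mdot b x * (Real.exp t)⁻¹ -
      GF.mdot a x * GF.mdot b y) := by
    field_simp at h3 ⊢
    linarith
  rw [form ha hab]
  show sim 1 L 0 x = _
  rw [sub_sub, sub_eq_iff_eq_add] at hc
  rw [hc, h4]
  simp only [md_sub, md_sub_l, md_smul, md_smul_l, hab, hba, ha.1, hb.1, h1, h2, md_comm y a,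
    md_comm y b]
  match_scalars <;> field_simp <;> ring

lemma an_cm (ha : IsNull a) (h : AN a L) (h' : AN a L') : AN a (cm L L') := fun x hx => by
  obtain ⟨c, hc⟩ := h x hx
  obtain ⟨c', hc'⟩ := h' x hx
  obtain ⟨d, hd⟩ := h a ha.1
  refine ⟨c + c' * (1 + d), ?_⟩
  rw [Kin.sim_comp, hc', simL_add, simL_smul, hc, hd]
  module

lemma an_cj (hL : IsLor L) (h : AN b M)
    (e : ∀ x, sim 1 M' 0 (sim 1 L 0 x) = sim 1 L 0 (sim 1 M 0 x)) : AN (sim 1 L 0 b) M' :=
  fun y hy => by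
    rw [← sim_linv hL y, md_LL hL] at hy
    obtain ⟨c, hc⟩ := h _ hy
    refine ⟨c, ?_⟩
    rw [← sim_linv hL y, e, hc, simL_add, simL_smul]

lemma cubic (ha : IsNull a) (hM : IsLor M) (h : AN a M) : ∃ c : ℝ, 2 ≤ c ∧ ∀ y,
    sim 1 M 0 (sim 1 M 0 (sim 1 M 0 y)) =
      (c + 1) • sim 1 M 0 (sim 1 M 0 y) - (c + 1) • sim 1 M 0 y + y := by
  obtain ⟨t, ht⟩ := eig ha hM h
  have h0 := Real.exp_pos t
  refine ⟨Real.exp t + (Real.exp t)⁻¹, ?_, fun y => ?_⟩
  · have : 0 ≤ (Real.exp t - 1) ^ 2 / Real.exp t := by positivity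
    have e : (Real.exp t - 1) ^ 2 / Real.exp t = Real.exp t + (Real.exp t)⁻¹ - 2 := by
      field_simp
      ring
    linarith
  obtain ⟨c, hc⟩ := h (sim 1 M 0 y - (Real.exp t)⁻¹ • y) (by
    rw [md_sub, md_smul, md_eig hM ht, sub_self])
  have h1 := congrArg (sim 1 M 0) hc
  simp only [simL_add, simL_sub, simL_smul, ht] at h1 hc
  have h2 : Real.exp t * (Real.exp t)⁻¹ = 1 := mul_inv_cancel₀ h0.ne'
  linear_combination (norm := module) h1 - Real.exp t • hc + h2 • (y - sim 1 M 0 y)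

/-- polynomial square roots -/
def Rt (L M : Ix → V) : Prop := IsLor M ∧ ap M * ap M = ap L ∧ ∃ p q : ℝ, |p| ≤ 1 ∧ |q| ≤ 1 ∧
  ∀ x, sim 1 M 0 x = x + p • (sim 1 L 0 x - x) +
    q • (sim 1 L 0 (sim 1 L 0 x - x) - (sim 1 L 0 x - x))

lemma rt_ex (ha : IsNull a) (hL : IsLor L) (h : AN a L) : ∃ M, Rt L M := by
  obtain ⟨b, hb, hab⟩ := Kin.exists_dual ha
  obtain ⟨t, w, e⟩ := par ha hb hab hL h
  have h0 := Real.exp_pos (t / 2)
  obtain ⟨k, hk⟩ : ∃ k : Tv a b, k = (1 + Real.exp (t / 2))⁻¹ • w := ⟨_, rfl⟩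
  have hM : IsLor (cm (nrt a k) (bo a b (t / 2))) :=
    ue_lor (isLor_nrt ha k.2.1) (lor_bo ha hb hab _)
  have e1 : ap (cm (nrt a k) (bo a b (t / 2))) = nr a b k * bp a b (t / 2) := ap_cm _ _
  have e2 : k + Real.exp (t / 2) • k = w := by
    rw [hk]
    match_scalars
    field_simp
  have h1 : AN a (cm (nrt a k) (bo a b (t / 2))) := fun x hx => by
    refine ⟨(Real.exp (t / 2) - 1) * GF.mdot b x - 2 * GF.mdot k x, ?_⟩
    refine (congrFun e1 x).trans ?_
    rw [form ha hab, hx]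
    module
  generalize cm (nrt a k) (bo a b (t / 2)) = M at hM e1 h1
  have e3 : ap M * ap M = ap L := by rw [e1, (sd ha hb hab).law, e2, add_halves, e]
  obtain ⟨c, hc, h2⟩ := cubic ha hM h1
  have h3 : 0 < c := by linarith
  refine ⟨M, hM, e3, (c - 1) / c, -(c * (c + 2))⁻¹, ?_, ?_, fun x => ?_⟩
  · rw [abs_of_nonneg (div_nonneg (by linarith) h3.le), div_le_one h3]
    linarith
  · rw [abs_neg, abs_of_nonneg (by positivity)]
    exact inv_le_one_of_one_le₀ (by nlinarith)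
  have e4 : ∀ y, sim 1 L 0 y = sim 1 M 0 (sim 1 M 0 y) := fun y => (congrFun e3 y).symm
  simp only [e4, simL_sub]
  rw [h2 (sim 1 M 0 x), h2 x]
  match_scalars <;> field_simp <;> ring

lemma rt_an (hb : IsNull b) (h : AN b L) (hr : Rt L M) : AN b M := fun x hx => by
  obtain ⟨-, -, p, q, -, -, e⟩ := hr
  obtain ⟨c, hc⟩ := h x hx
  obtain ⟨d, hd⟩ := h b hb.1
  refine ⟨p * c + q * c * d, ?_⟩
  rw [e, hc, add_sub_cancel_left, simL_smul, hd]
  module

lemma rt_one (hr : Rt GF.one M) : M = GF.one := by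
  obtain ⟨-, -, p, q, -, -, e⟩ := hr
  refine Kin.mat_ext fun x => ?_
  simp only [e, H26.sim_one0, sub_self, smul_zero, add_zero]

lemma rt_lim {ι : Type*} {l : Filter ι} {L M : ι → Ix → V} (hL : Tendsto L l (𝓝 GF.one))
    (h : ∀ i, M i = GF.one ∨ Rt (L i) (M i)) : Tendsto M l (𝓝 GF.one) := by
  refine tendsto_pi_nhds.2 fun m => tendsto_iff_norm_sub_tendsto_zero.2 ?_
  let F : (Ix → V) → ℝ := fun L => ‖sim 1 L 0 (bas m 1) - bas m 1‖ +
    ‖sim 1 L 0 (sim 1 L 0 (bas m 1) - bas m 1) - (sim 1 L 0 (bas m 1) - bas m 1)‖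
  have hF : Continuous F := by
    simp only [F]
    unfold sim
    fun_prop
  have F0 : F GF.one = 0 := by simp only [F, H26.sim_one0, sub_self, norm_zero, add_zero]
  refine squeeze_zero (fun _ => norm_nonneg _) (fun i => ?_) (F0 ▸ (hF.tendsto _).comp hL)
  rcases h i with e | ⟨-, -, p, q, hp, hq, e⟩
  · rw [e, sub_self, norm_zero]
    exact add_nonneg (norm_nonneg _) (norm_nonneg _)
  · rw [H26.sim_row (M i) m, e, add_assoc]
    show ‖bas m 1 + _ - bas m 1‖ ≤ _
    rw [add_sub_cancel_left]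
    refine (norm_add_le _ _).trans (add_le_add ?_ ?_) <;> rw [norm_smul, Real.norm_eq_abs]
    · exact mul_le_of_le_one_left (norm_nonneg _) hp
    · exact mul_le_of_le_one_left (norm_nonneg _) hq

end Vale.Agent.P352G97

end
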