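import Vale.Agent.P352G97.Lin

/-!
# P352G, row RSG: good signs exist
-/

set_option linter.all false

open Filter Topology

noncomputable section

namespace Vale.Agent.P352G97

open Vale.Agent.P352 Vale.Agent.P352.GF Vale.Agent.P352.BW Vale.Agent.P352.H246 Vale.Agent.P352.H496
open Vale.Agent.P352.H15 Vale.Agent.P352.H755 Vale.Agent.P352X Vale.Agent.P352G
open UniformSpace (Completion)

variable {D : Type*} [NormedAddCommGroup D] [InnerProductSpace ℂ D] [GrD D] {Q : Theory D}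
  {A : (V → V) → D → D} {N : Set V → VonNeumannAlgebra (Completion D)} {a b : V}
  {L L' M M' : Ix → V}

/-- the lifts -/
def uu (Q : Theory D) (g : Function.End V) : Function.End D := Q.U 1 (mx g) 0

/-- the grading -/
def zz (D : Type*) [NormedAddCommGroup D] [InnerProductSpace ℂ D] [GrD D] : Function.End D := Gd

lemma uu_ap (L : Ix → V) : uu Q (ap L) = Q.U 1 L 0 := by rw [uu, mx_ap]

lemma sq_ap (L : Ix → V) (v : D) : Sq (uu Q) (ap L) v = Q.U 1 L 0 (Q.U 1 L 0 v) := by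
  rw [Sq, uu_ap]
  rfl

lemma ab (h : Gr Q GrD.G) : Ab PL (uu Q) (zz D) where
  zz := funext h.inv
  cz := by
    rintro _ ⟨L, hL, rfl⟩
    rw [uu_ap]
    exact funext fun v => (h.GU 1 L 0 v one_pos hL).symm
  cl := by
    rintro _ _ ⟨L, hL, rfl⟩ ⟨L', hL', rfl⟩
    exact ⟨_, ue_lor hL hL', (ap_cm L L').symm⟩
  mul := by
    rintro _ _ ⟨L, hL, rfl⟩ ⟨L', hL', rfl⟩
    have h1 := h.mul 1 L 0 1 L' 0 one_pos one_pos hL hL'
    rw [Grp.sim_zero, mul_one] at h1
    rw [← ap_cm, uu_ap, uu_ap, uu_ap]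
    exact h1.imp (fun e => funext e) fun e => funext e.2.2

open Classical in
/-- the sign -/
def sgn (Q : Theory D) (L : Ix → V) : Bool :=
  decide (∃ M b, IsNull b ∧ AN b L ∧ Rt L M ∧ Sq (uu Q) (ap M) ≠ Q.U 1 L 0)

lemma sgn_iff : sgn Q L = true ↔
    ∃ M b, IsNull b ∧ AN b L ∧ Rt L M ∧ Sq (uu Q) (ap M) ≠ Q.U 1 L 0 := by
  classical
  exact decide_eq_true_iff

lemma sq_eq (h : Gr Q GrD.G) (ha : IsNull a) (hM : IsLor M) (hM' : IsLor M') (h1 : AN a M)
    (h2 : AN a M') (e : ap M * ap M = ap M' * ap M') : Sq (uu Q) (ap M) = Sq (uu Q) (ap M') := by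
  obtain ⟨b, hb, hab⟩ := Kin.exists_dual ha
  exact (sd ha hb hab).uniq (ab h) (inj ha hb hab) (par ha hb hab hM h1) (par ha hb hab hM' h2) e

lemma us_eq (h : Gr Q GrD.G) (ha : IsNull a) (h1 : AN a L) (hr : Rt L M) :
    Us Q (sgn Q) 1 L 0 = Sq (uu Q) (ap M) := by
  funext v
  unfold Us
  cases e : sgn Q L
  · have h2 : Sq (uu Q) (ap M) = Q.U 1 L 0 := by
      by_contra h3
      rw [sgn_iff.2 ⟨M, a, ha, h1, hr, h3⟩] at e
      exact nomatch e
    rw [h2]
    rfl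
  · obtain ⟨M', -, -, -, hr', h3⟩ := sgn_iff.1 e
    rw [sq_eq h ha hr.1 hr'.1 (rt_an ha h1 hr) (rt_an ha h1 hr') (hr.2.1.trans hr'.2.1.symm)]
    have h4 := (ab h).sql ⟨M', hr'.1, rfl⟩
    rw [hr'.2.1, Lf, uu_ap] at h4
    rw [h4.resolve_left h3]
    rfl

lemma cont_one (h : LNg Q GrD.G A (Gm D) N) {ι : Type*} {l : Filter ι} {p : ι → Ix → V}
    (hp : ∀ i, IsLor (p i)) (hl : Tendsto p l (𝓝 GF.one)) (v : D) :
    Tendsto (fun i => Q.U 1 (p i) 0 v) l (𝓝 (Q.U 1 GF.one 0 v)) := by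
  classical
  by_contra hn
  rw [Metric.tendsto_nhds] at hn
  push Not at hn
  obtain ⟨ε, hε, hfr⟩ := hn
  have h1 : ∀ e : ℝ, e ≠ 0 → ∃ i, ε ≤ dist (Q.U 1 (p i) 0 v) (Q.U 1 GF.one 0 v) ∧
      dist (p i) GF.one < e ^ 2 := fun e he =>
    (hfr.and_eventually (Metric.tendsto_nhds.1 hl _ (by positivity))).exists
  choose i hi1 hi2 using h1
  let q : ℝ → Ix → V := fun e => if h : e ≠ 0 then p (i e h) else GF.one
  have q0 : q 0 = GF.one := by simp [q]
  have q1 : ∀ e, IsLor (q e) := fun e => by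
    by_cases h : e ≠ 0
    · simpa only [q, dif_pos h] using hp _
    · simpa only [q, dif_neg h] using H496.isLor_one
  have q2 : ∀ e, ‖q e - q 0‖ ≤ e ^ 2 := fun e => by
    by_cases h : e ≠ 0
    · rw [q0, ← dist_eq_norm]
      simpa only [q, dif_pos h] using (hi2 e h).le
    · rw [not_not.1 h]
      simp
  have q3 : HasDerivAt q 0 0 := by
    rw [hasDerivAt_iff_isLittleO]
    simp only [smul_zero, sub_zero]
    refine Asymptotics.IsBigO.trans_isLittleO (g := fun e : ℝ => e ^ 2)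
      (Asymptotics.IsBigO.of_bound 1 (Eventually.of_forall fun e => ?_)) ?_
    · simpa using q2 e
    · exact Asymptotics.isLittleO_pow_id (by norm_num)
  have h2 := (h.der (fun _ => 1) q (fun _ => 0) (fun _ => 0) v rfl q0 rfl
    (fun e => ⟨one_pos, q1 e⟩) (fun n y => by
      have hd : Differentiable ℝ fun L : Ix → V => sim 1 L 0 y n := by
        unfold sim
        fun_prop
      have := (hd (q 0)).hasFDerivAt.comp_hasDerivAt (0 : ℝ) q3
      rw [map_zero] at this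
      exact this)).continuousAt.tendsto
  simp only [q0] at h2
  have h3 := (Metric.tendsto_nhds.1 h2 ε hε).filter_mono (nhdsWithin_le_nhds (s := {0}ᶜ))
  obtain ⟨e, h4, h5⟩ := (h3.and self_mem_nhdsWithin).exists
  have h6 : e ≠ 0 := h5
  have h7 := hi1 e h6
  simp only [q, dif_pos h6] at h4
  exact absurd h4 (not_lt.2 h7)

lemma u11 (h : Gr Q GrD.G) (v : D) : Q.U 1 GF.one 0 (Q.U 1 GF.one 0 v) = Q.U 1 GF.one 0 v := by
  have h1 := (h.mul 1 _ 0 1 _ 0 one_pos one_pos H496.isLor_one H496.isLor_one).resolve_right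
    (fun e => e.1 rfl) v
  simpa only [Grp.sim_zero, mul_one, H26.sim_one0] using h1

lemma u1 (h : Gr Q GrD.G) (v : D) : Q.U 1 GF.one 0 v = v :=
  (ueI Q one_pos H496.isLor_one 0).injective (u11 h v)

theorem sgn_row : SGN D := fun Q A N h => by
  refine ⟨sgn Q, ?_, fun a L L' v ha hL hL' h1 h2 => ?_, fun L M M' b v hL hM hM' hb h1 e => ?_,
    fun L hL hl => ?_⟩
  · refine Bool.eq_false_iff.2 fun h0 => ?_
    obtain ⟨M, b, -, -, hr, h1⟩ := sgn_iff.1 h0
    exact h1 (funext fun v => by rw [rt_one hr, sq_ap, u11 h.toGr])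
  · obtain ⟨M, hr⟩ := rt_ex ha hL h1
    obtain ⟨M', hr'⟩ := rt_ex ha hL' h2
    have h3 := an_cm ha h1 h2
    obtain ⟨K, hk⟩ := rt_ex ha (ue_lor hL hL') h3
    obtain ⟨b, hb, hab⟩ := Kin.exists_dual ha
    rw [us_eq h.toGr ha h1 hr, us_eq h.toGr ha h2 hr', us_eq h.toGr ha h3 hk]
    exact congrFun ((sd ha hb hab).hom (ab h.toGr) (inj ha hb hab)
      (par ha hb hab hr.1 (rt_an ha h1 hr)) (par ha hb hab hr'.1 (rt_an ha h2 hr'))
      (par ha hb hab hk.1 (rt_an ha h3 hk)) (by rw [hk.2.1, hr.2.1, hr'.2.1, ap_cm])) v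
  · have hb' := isNull_lor hL hb
    have h2 := an_cj hL h1 e
    obtain ⟨R, hr⟩ := rt_ex hb hM h1
    obtain ⟨R', hr'⟩ := rt_ex hb' hM' h2
    have e1 : ∀ x, sim 1 (cm L (cm R (linv L))) 0 (sim 1 L 0 x) = sim 1 L 0 (sim 1 R 0 x) :=
      fun x => by rw [Kin.sim_comp, Kin.sim_comp, sim_linv2 hL]
    have h3 : IsLor (cm L (cm R (linv L))) := ue_lor hL (ue_lor hr.1 (isLor_linv hL))
    generalize cm L (cm R (linv L)) = K at e1 h3
    have h4 := sq_eq h.toGr hb' h3 hr'.1 (an_cj hL (rt_an hb h1 hr) e1) (rt_an hb' h2 hr') (by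
      rw [hr'.2.1]
      funext y
      rw [ap_mul, ← sim_linv hL y, e1, e1, ← ap_mul R R, hr.2.1]
      exact (e _).symm)
    have h5 := (ab h.toGr).conj (g := ap L) ⟨L, hL, rfl⟩ ⟨R, hr.1, rfl⟩ ⟨K, h3, rfl⟩ (.inl rfl)
      (funext e1)
    rw [us_eq h.toGr hb h1 hr, us_eq h.toGr hb' h2 hr', ← h4, ← uu_ap]
    exact congrFun h5 v
  · by_cases hG : ∀ v : D, Gd v = v
    · refine .of_forall fun t v => ?_
      unfold Us
      cases sgn Q (L t)
      · rfl
      · exact hG _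
    push Not at hG
    obtain ⟨v, hv⟩ := hG
    have h1 : ∀ t, ∃ M, IsLor M ∧ (M = GF.one ∨ Rt (L t) M) ∧ (sgn Q (L t) = true →
        Q.U 1 M 0 (Q.U 1 M 0 v) = Q.U 1 (L t) 0 (Gd v)) := fun t => by
      cases e : sgn Q (L t)
      · exact ⟨_, H496.isLor_one, .inl rfl, fun e => nomatch e⟩
      · obtain ⟨M, b, hb, h1, hr, -⟩ := sgn_iff.1 e
        refine ⟨M, hr.1, .inr hr, fun _ => ?_⟩
        rw [← sq_ap, ← us_eq h.toGr hb h1 hr, Us, e, h.GU 1 _ 0 v one_pos (hL t)]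
        rfl
    choose M hM h2 h3 using h1
    have h4 := cont_one h hM (rt_lim hl h2) v
    have h5 := cont_one h hL hl (Gd v)
    rw [u1 h.toGr] at h4 h5
    have h6 : 0 < dist (Gd v) v / 3 := by
      have := dist_pos.2 hv
      positivity
    filter_upwards [Metric.tendsto_nhds.1 h4 _ h6, Metric.tendsto_nhds.1 h5 _ h6] with t h7 h8 w
    unfold Us
    cases e : sgn Q (L t)
    · rfl
    · exfalso
      have h9 : dist (Q.U 1 (M t) 0 (Q.U 1 (M t) 0 v)) (Q.U 1 (M t) 0 v) =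
          dist (Q.U 1 (M t) 0 v) v := (ueI Q one_pos (hM t) 0).dist_map _ _
      rw [h3 t e] at h9
      have h10 := dist_triangle4 (Gd v) (Q.U 1 (L t) 0 (Gd v)) (Q.U 1 (M t) 0 v) v
      rw [dist_comm (Gd v) (Q.U 1 (L t) 0 (Gd v))] at h10
      linarith

end Vale.Agent.P352G97

end
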